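import Vale.Agent.P237.Petty.Cor.Low20.H1c.Data

/-!
# P237: kernel checks of boxes 20 to 22
-/

namespace Vale.Agent.P237.Petty.Cor.Low20.H1c

def check20 : cutAll dat.Z1 (boxAll dat box20)
  [.leaf, .leaf, .leaf, .leaf, .leaf, (.split 0 .leaf (.split 1 .leaf .leaf)), .leaf, (.split 0
    .leaf (.split 1 .leaf .leaf)), .leaf, .leaf, .leaf, (.split 2 .leaf .leaf), .leaf, .leaf, .leaf,
    .leaf, .leaf, .leaf, .leaf, .leaf, (.split 2 .leaf .leaf), .leaf, .leaf, .leaf, .leaf, .leaf,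
    .leaf, .leaf, .leaf, .leaf, .leaf, (.split 0 .leaf .leaf), .leaf, .leaf, .leaf, .leaf, .leaf,
    .leaf] = true := by
  decide +kernel

def check21 : cutAll dat.Z1 (boxAll dat box21)
  [.leaf, .leaf, .leaf, .leaf, .leaf, (.split 0 .leaf (.split 1 .leaf .leaf)), .leaf, .leaf, .leaf,
    .leaf, .leaf, .leaf, .leaf, .leaf, .leaf, .leaf, .leaf, .leaf, .leaf, .leaf, .leaf, .leaf,
    .leaf, .leaf, .leaf, .leaf, .leaf, .leaf, .leaf, .leaf, .leaf, (.split 0 .leaf .leaf), .leaf,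
    .leaf, .leaf, .leaf, .leaf, .leaf] = true := by
  decide +kernel

def check22 : cutAll dat.Z1 (boxAll dat box22)
  [.leaf, .leaf, .leaf, .leaf, .leaf, .leaf, .leaf, .leaf, .leaf, .leaf, .leaf, .leaf, .leaf, .leaf,
    .leaf, .leaf, .leaf, .leaf, .leaf, .leaf, .leaf, .leaf, .leaf, .leaf, .leaf, .leaf, .leaf,
    .leaf, .leaf, .leaf, .leaf, (.split 0 .leaf .leaf), .leaf, .leaf, .leaf, .leaf, .leaf, .leaf] = true := by
  decide +kernel

end Vale.Agent.P237.Petty.Cor.Low20.H1c
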