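import Vale.Agent.P237.Petty.Cor.Low20.H1c.Data

/-!
# P237: kernel checks of boxes 6 to 7
-/

namespace Vale.Agent.P237.Petty.Cor.Low20.H1c

def check6 : cutAll dat.Z1 (boxAll dat box6)
  [.leaf, .leaf, .leaf, .leaf, .leaf, .leaf, .leaf, .leaf, .leaf, .leaf, (.split 0 .leaf .leaf),
    .leaf, .leaf, .leaf, .leaf, .leaf, .leaf, (.split 2 .leaf (.split 2 .leaf (.split 2 .leaf
    (.split 2 .leaf (.split 2 .leaf (.split 2 .leaf .leaf)))))), .leaf, (.split 2 .leaf (.split 2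
    .leaf (.split 0 .leaf .leaf))), .leaf, .leaf, .leaf, .leaf, .leaf, .leaf, (.split 2 .leaf
    (.split 2 .leaf (.split 2 .leaf (.split 2 .leaf (.split 2 .leaf (.split 2 .leaf .leaf)))))),
    .leaf, .leaf, .leaf, .leaf, (.split 0 .leaf .leaf), .leaf, .leaf, .leaf, .leaf, .leaf, .leaf] = true := by
  decide +kernel

def check7 : cutAll dat.Z1 (boxAll dat box7)
  [.leaf, .leaf, .leaf, .leaf, .leaf, .leaf, .leaf, .leaf, .leaf, .leaf, .leaf, .leaf, .leaf, .leaf,
    .leaf, .leaf, .leaf, (.split 2 .leaf (.split 2 .leaf (.split 2 .leaf (.split 2 .leaf (.split 2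
    .leaf .leaf))))), .leaf, .leaf, .leaf, .leaf, .leaf, .leaf, .leaf, .leaf, (.split 2 .leaf
    (.split 2 .leaf (.split 2 .leaf (.split 2 .leaf (.split 2 .leaf .leaf))))), .leaf, .leaf, .leaf,
    .leaf, (.split 0 .leaf .leaf), .leaf, .leaf, .leaf, .leaf, .leaf, .leaf] = true := by
  decide +kernel

end Vale.Agent.P237.Petty.Cor.Low20.H1c
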