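import Vale.Agent.P237.Petty.Cor.Low20.H1c.Data

/-!
# P237: kernel checks of boxes 13 to 13
-/

namespace Vale.Agent.P237.Petty.Cor.Low20.H1c

theorem check13 : cutAll dat.Z1 (boxAll dat box13)
  [.leaf, .leaf, .leaf, .leaf, .leaf, .leaf, .leaf, .leaf, .leaf, .leaf, .leaf, .leaf, .leaf, .leaf,
    .leaf, .leaf, (.split 2 .leaf (.split 2 (.split 0 .leaf (.split 2 .leaf .leaf)) .leaf)), (.split
    2 (.split 0 (.split 2 .leaf (.split 0 .leaf .leaf)) .leaf) (.split 0 (.split 2 (.split 0 .leaf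
    .leaf) (.split 0 (.split 2 .leaf .leaf) .leaf)) .leaf)), (.split 2 .leaf (.split 2 .leaf (.split
    0 .leaf .leaf))), (.split 2 (.split 2 (.split 0 (.split 2 (.split 2 (.split 0 .leaf .leaf)
    .leaf) .leaf) .leaf) .leaf) .leaf), .leaf, .leaf, .leaf, .leaf, .leaf, (.split 2 .leaf (.split 2
    (.split 0 .leaf (.split 2 .leaf (.split 2 .leaf .leaf))) .leaf)), (.split 2 (.split 0 (.split 2
    .leaf (.split 0 .leaf .leaf)) .leaf) (.split 0 (.split 2 (.split 0 .leaf .leaf) (.split 0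
    (.split 2 .leaf .leaf) .leaf)) .leaf)), (.split 2 .leaf (.split 2 .leaf (.split 0 .leaf
    .leaf))), (.split 2 (.split 2 (.split 0 (.split 2 (.split 2 (.split 0 .leaf .leaf) .leaf) .leaf)
    .leaf) .leaf) .leaf), .leaf, .leaf, (.split 0 .leaf .leaf), .leaf, .leaf, .leaf, .leaf, .leaf,
    .leaf] = true := by
  decide +kernel

end Vale.Agent.P237.Petty.Cor.Low20.H1c
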