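import Vale.Agent.P237.Petty.Cor.Low20.H1c.Data

/-!
# P237: kernel checks of boxes 14 to 15
-/

namespace Vale.Agent.P237.Petty.Cor.Low20.H1c

def check14 : cutAll dat.Z1 (boxAll dat box14)
  [.leaf, .leaf, .leaf, .leaf, .leaf, .leaf, .leaf, .leaf, .leaf, .leaf, .leaf, .leaf, .leaf, .leaf,
    .leaf, .leaf, (.split 2 .leaf (.split 2 .leaf .leaf)), .leaf, (.split 2 .leaf (.split 2 .leaf
    (.split 0 .leaf .leaf))), .leaf, .leaf, .leaf, .leaf, .leaf, .leaf, (.split 2 .leaf (.split 2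
    (.split 0 .leaf .leaf) .leaf)), .leaf, (.split 2 .leaf (.split 2 .leaf (.split 0 .leaf .leaf))),
    .leaf, .leaf, .leaf, (.split 0 .leaf .leaf), .leaf, .leaf, .leaf, .leaf, .leaf, .leaf] = true := by
  decide +kernel

def check15 : cutAll dat.Z1 (boxAll dat box15)
  [.leaf, .leaf, .leaf, .leaf, .leaf, .leaf, .leaf, .leaf, .leaf, .leaf, (.split 0 .leaf .leaf),
    .leaf, .leaf, .leaf, (.split 2 .leaf .leaf), (.split 2 .leaf .leaf), (.split 2 (.split 2 .leaf
    .leaf) (.split 2 .leaf .leaf)), .leaf, (.split 2 .leaf (.split 2 .leaf (.split 0 (.split 2 .leaf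
    (.split 2 .leaf (.split 0 .leaf .leaf))) .leaf))), (.split 2 .leaf (.split 0 (.split 2 .leaf
    (.split 0 (.split 2 .leaf (.split 0 .leaf .leaf)) .leaf)) .leaf)), .leaf, .leaf, .leaf, (.split
    2 .leaf .leaf), (.split 2 .leaf .leaf), (.split 2 (.split 2 .leaf .leaf) (.split 2 .leaf
    .leaf)), .leaf, (.split 2 .leaf (.split 2 .leaf (.split 0 (.split 2 .leaf (.split 2 .leaf
    (.split 0 .leaf .leaf))) .leaf))), .leaf, .leaf, .leaf, (.split 0 .leaf .leaf), .leaf, .leaf,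
    .leaf, .leaf, .leaf, .leaf] = true := by
  decide +kernel

end Vale.Agent.P237.Petty.Cor.Low20.H1c
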