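import Vale.Agent.P237.Petty.Cor.Low20.H1c.Check0
import Vale.Agent.P237.Petty.Cor.Low20.H1c.Check1
import Vale.Agent.P237.Petty.Cor.Low20.H1c.Check2
import Vale.Agent.P237.Petty.Cor.Low20.H1c.Check3
import Vale.Agent.P237.Petty.Cor.Low20.H1c.Check4
import Vale.Agent.P237.Petty.Cor.Low20.H1c.Check5
import Vale.Agent.P237.Petty.Cor.Low20.H1c.Check6
import Vale.Agent.P237.Petty.Cor.Low20.H1c.Check7
import Vale.Agent.P237.Petty.Cor.Low20.H1c.Check8
import Vale.Agent.P237.Petty.Cor.Low20.H1c.Check9
import Vale.Agent.P237.Petty.Cor.Low20.H1c.Check10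
import Vale.Agent.P237.Petty.Cor.Low20.H1c.Check11
import Vale.Agent.P237.Petty.Cor.Low20.H1c.Check12
import Vale.Agent.P237.Petty.Cor.Low20.H1c.Rest

/-!
# P237: a cell of small values, dimensions 20 to 25
-/

namespace Vale.Agent.P237.Petty.Cor.Low20.H1c

theorem bulk_sound : ∀ c ∈ boxes.take 25, BoxSound dat c ∧ TopSound dat c := by
  rw [show boxes.take 25 = bulk from rfl]
  simp only [bulk, List.forall_mem_cons]
  exact ⟨bound_of_boxAll check0, bound_of_boxAll check1, bound_of_boxAll check2, bound_of_boxAll check3,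
    bound_of_boxAll check4, bound_of_boxAll check5, bound_of_boxAll check6, bound_of_boxAll check7,
    bound_of_boxAll check8, bound_of_boxAll check9, bound_of_boxAll check10, bound_of_boxAll check11,
    bound_of_boxAll check12, bound_of_boxAll check13, bound_of_boxAll check14, bound_of_boxAll check15,
    bound_of_boxAll check16, bound_of_boxAll check17, bound_of_boxAll check18, bound_of_boxAll check19,
    bound_of_boxAll check20, bound_of_boxAll check21, bound_of_boxAll check22, bound_of_boxAll check23,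
    bound_of_boxAll check24,
    fun _ h => absurd h List.not_mem_nil⟩

theorem corCell {p : ℕ} (h0 : 20 ≤ p + 2) (h1 : p + 2 ≤ 25) :
    CorCell p ((1 / 2 : ℝ) / ((p : ℝ) + 2)) ((27 / 20 : ℝ) / ((p : ℝ) + 2)) := by
  have hs := shapeOk
  simp only [Bool.and_eq_true, decide_eq_true_eq] at hs
  obtain ⟨⟨s1, s2⟩, s4⟩ := hs
  have ha := atOk
  rw [List.all_eq_true] at ha
  have h2 := ha (p - 18) (List.mem_range.2 (by omega))
  rw [show 18 + (p - 18) = p by omega] at h2
  have h := corCell_of_checks s1 h2 (farSound_of checkFar) (fun c hc => (bulk_sound c hc).1) s2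
    (millsSound_of checkMills millsFull) s4 fun c hc => (bulk_sound c hc).2
  convert h using 2 <;> norm_num [dat]

end Vale.Agent.P237.Petty.Cor.Low20.H1c
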